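import Vale.Agent.P365.T2.H831.UPart2
import Vale.Agent.P365.T2.H698.OneOutF
import Vale.Agent.P365.T2.H256.LawSum

/-!
# P365-T2, X-LAWERR: 831's `ULaw lam E C1` (helper869, shadow of 678)

From 698's one-site output (`one_out_fam`) and 256's summation (`errSum_stW`).
-/

set_option linter.all false

namespace P365T2.H869

open P365L P365O P365T1 P365L.TL Matrix Complex MeasureTheory Filter Topology Set
open Vale.Agent.P365.J376 P365T2.H213 P365T2.H320U P365T2.X629
open P365L.T2.Path P365H878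
open P365T2.H844 (Ups Pos TT tt fam ur Pw pr rho_ur)
open Vale.Agent.P365.T2.H417 (Sig)
open Vale.Agent.P365.T2.H789 (Dens ErrSum)
open P365T1.Conc (tau0 tau0_pos tau0_le l0_pos l0_lt)
open P365T1.Smooth755 (rhoSd smLaw_nuS K1 K1_nonneg)
open P365T2.H913 (CY CLy CY_nonneg CLy_pos)
open P365T2.H256 (CtU CtQ errSum_stW)
open scoped ComplexConjugate ENNReal

/-- the smooth law in the sense of `Dens` -/
theorem dens_nuS {a l : ℝ} (hl : 0 < l) (h : l < a) :
    Dens (rhoS a l) (rhoSd a l) a ((2 * (a - l))⁻¹) (K1 a l) where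
  L0 := (hl.trans h).le
  nn := fun t => rhoS_nonneg hl h t
  le := fun t => rhoS_le hl h t
  c := P365T1.Smooth755.continuous_rhoS' h.le
  c' := P365T1.Smooth755.continuous_rhoSd a l
  hd := fun t => P365T1.Smooth755.hasDerivAt_rhoS h.le t
  le' := fun t => P365T1.Smooth755.abs_rhoSd_le hl h t
  off := fun t ht => P365T2.H722.rhoS_eq_zero hl h ht.le
  off' := fun t ht => P365T1.Smooth755.rhoSd_eq_zero hl h ht.le
  one := by
    rw [integral_eq_lintegral_of_nonneg_ae
      (Filter.Eventually.of_forall fun t => rhoS_nonneg hl h t)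
      (P365T1.Smooth755.continuous_rhoS' h.le).aestronglyMeasurable,
      P365T2.H722.integral_rhoS_one hl h, ENNReal.toReal_one]

section gen

variable {ι : Type*} [Fintype ι] [DecidableEq ι] {A : Matrix ι ι ℝ} {W : ι → ℂ}

theorem sum_Yf_kernel {κ : Type*} [Fintype κ] (A : Matrix ι ι ℝ) (W : ι → ℂ) (f : κ → ι → ℝ)
    (z : ι) : ∑ j, Yf A W (f j) z =
      (∑ a, (-(W a).im) * ‖gw A W z a‖ ^ 2 * ∑ j, (f j a - f j z) ^ 2) /
        (1 + ‖sg A W z‖ ^ 2) := by
  unfold Yf Nf
  rw [← Finset.sum_div, Finset.sum_comm]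
  congr 1
  refine Finset.sum_congr rfl fun a _ => ?_
  rw [Finset.mul_sum]

/-- the last kernel is the family itself -/
theorem sum_Yf_last {κ : Type*} [Fintype κ] (F : κ → ι → ℝ) (J : ℕ) (z : ι) :
    ∑ j, Yf A W (kf F J (J + 2) j) z = ∑ j, Yf A W (F j) z := by
  rw [sum_Yf_kernel, sum_Yf_kernel]
  congr 1
  refine Finset.sum_congr rfl fun a _ => ?_
  rw [kf_spec]
  unfold P365T2.H37.Hc
  rw [if_neg (by omega), if_neg (by omega)]
  rfl

theorem sum_Yf_le_kf {κ : Type*} [Fintype κ] (hW : ∀ x, (W x).im < 0) (F : κ → ι → ℝ) (J : ℕ)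
    (z : ι) : ∑ j, Yf A W (F j) z ≤
      ∑ k ∈ Finset.range (J + 3), ∑ j, Yf A W (kf F J k j) z := by
  rw [← sum_Yf_last (A := A) (W := W) F J z]
  exact Finset.single_le_sum (f := fun k => ∑ j, Yf A W (kf F J k j) z)
    (fun k _ => Finset.sum_nonneg fun j _ => Yf_nonneg hW _ z)
    (Finset.mem_range.2 (by omega))

/-- 698's content = 256's content -/
theorem Cont_eq_CtU (hA : A.IsSymm) {κ : Type*} [Fintype κ] (F : κ → ι → ℝ) (J : ℕ) (y : ι)
    (W : ι → ℂ) : P365T2.H698.Cont (fam F) A J y W = CtU A F J y W := by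
  unfold P365T2.H698.Cont CtU CtQ
  refine Finset.sum_congr rfl fun x _ => Finset.sum_congr rfl fun k _ => ?_
  unfold P365T2.H618.ContXY
  rw [rho_ur]

end gen

theorem CY_scale {L C0 C1 a b k : ℝ} {n : ℝ} (hn : 0 ≤ n) :
    CY L C0 C1 (a * n) (b * Real.sqrt n) k = n * CY L C0 C1 a b k := by
  unfold CY
  have h := Real.sq_sqrt hn
  calc 2 * L * C1 * C0 * (a * n) + (2 * L * C1 * (b * Real.sqrt n)) ^ 2 / (4 * k)
      = 2 * L * C1 * C0 * (a * n) + (2 * L * C1 * b) ^ 2 * Real.sqrt n ^ 2 / (4 * k) := by ring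
    _ = n * (2 * L * C1 * C0 * a + (2 * L * C1 * b) ^ 2 / (4 * k)) := by rw [h]; ring

/-- **the law error of the averaged entropy over `StW`**: 831's `ULaw` -/
theorem uLaw {lam : ℝ} (hlam : 0 < lam) (E C1 : ℝ) (hC1 : 0 < C1) :
    P365T2.H831.ULaw lam E C1 := by
  have hl0 := l0_pos hlam
  have hl1 := l0_lt hlam
  refine ⟨25, by norm_num, fun T hT => ?_⟩
  set D0 : ℝ := (2 * (lam - lam * tau0 / 2))⁻¹ with hD0
  set D1 : ℝ := K1 lam (lam * tau0 / 2) with hD1
  have hD := dens_nuS hl0 hl1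
  rw [← hD0, ← hD1] at hD
  set B : ℝ := CY lam D0 D1 (200 * (T + 1)) (200 * Real.exp (T / 2)) 1 with hB
  have hB0 : 0 ≤ B := CY_nonneg hlam.le hD.C0_nonneg hD.C1_nonneg (by positivity) one_pos
  have hL0 := CLy_pos hlam E
  refine ⟨B * CLy lam E ^ 2 * (9 * (C1 + 4)), by positivity, fun N _ W ok τ hτ => ?_⟩
  haveI := ok.prob
  have hS1 : 1 ≤ W.S := by
    have := ok.S_ge
    rwa [div_one] at this
  have he : ∀ l x, 0 < eT W.u W.w τ l x := P365T2.H912.eT_pos ok τ
  set J := nJ C1 W.S with hJ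
  set K : ℝ := (J + 2 : ℝ) * B * (CLy lam E ^ 2 * (1 + 2 * W.S) ^ 2) with hK
  have hK0 : 0 ≤ K := by positivity
  have hA : (AT N).IsSymm := AT_symm N
  have hlog : ∀ l x, W.w l x ≠ 0 → max 0 (Real.log (1 / eT W.u W.w τ l x)) ≤ 2 * W.S := by
    intro l x hx
    refine max_le (by linarith) ?_
    have h1 := ok.w_ge l x hx
    rw [one_mul] at h1
    have h2 : Real.exp (-(2 * W.S)) ≤ eT W.u W.w τ l x := by
      obtain ⟨b, hb, hu⟩ := ok.u_pos
      have h3 : 0 ≤ W.u l x := (hb.trans_le (hu l x)).le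
      have h4 : Real.exp (-(2 * W.S)) ≤ Real.exp (-τ) * W.w l x := by
        calc Real.exp (-(2 * W.S)) ≤ Real.exp (-τ) * Real.exp (-W.S) := by
              rw [← Real.exp_add]
              exact Real.exp_le_exp.2 (by linarith [hτ.2])
          _ ≤ _ := mul_le_mul_of_nonneg_left h1 (Real.exp_pos _).le
      have h5 : eT W.u W.w τ l x = W.u l x + Real.exp (-τ) * W.w l x := rfl
      rw [h5]
      linarith
    rw [one_div, Real.log_inv]
    have h6 := Real.log_le_log (Real.exp_pos _) h2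
    rw [Real.log_exp] at h6
    linarith
  have key := errSum_stW (W := W) (E := E) (f := fR N J) (J := J) (τ := τ) (C0 := 5) (K := K) ok
    (rd := fun _ => rhoSd lam (lam * tau0 / 2))
    (F := fun _ => Sig (PhiR N J) (AT N) (Real.exp (-T)) J) (by norm_num) (by
      intro l x hx v
      have hsm : SmLaw (W.ν (l x)) (rhoS lam (lam * tau0 / 2)) (rhoSd lam (lam * tau0 / 2)) := by
        rw [ok.mov l x hx]
        exact smLaw_nuS hl0 hl1
      have h1 := P365T2.H698.one_out_fam (E := E) hA (fR N J) (T := T) (by linarith) J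
        (fun a b => P365T2.H831.ttfR_le a b) x hsm hD hlam (he l) v (k := 1) one_pos
      refine (le_of_eq ?_).trans (h1.trans ?_)
      · rfl
      · rw [add_comm]
        refine add_le_add (le_of_eq ?_) ?_
        · rw [← integral_const_mul]
          simp only [Cont_eq_CtU hA]
          norm_num
        · have hn : (0 : ℝ) ≤ J + 2 := by positivity
          have hW : ∀ z, (WV E (eT W.u W.w τ l) v z).im < 0 := WV_mem_LH (he l) v
          have h2 := sum_Yf_le_kf (A := AT N) hW (fR N J) J x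
          have h3 : 0 ≤ ∑ j, Yf (AT N) (WV E (eT W.u W.w τ l) v) (fR N J j) x :=
            Finset.sum_nonneg fun j _ => Yf_nonneg hW _ x
          have h4 : (1 + max 0 (Real.log (1 / eT W.u W.w τ l x))) ^ 2 ≤ (1 + 2 * W.S) ^ 2 := by
            have := hlog l x hx
            have h5 : 0 ≤ max 0 (Real.log (1 / eT W.u W.w τ l x)) := le_max_left _ _
            exact pow_le_pow_left₀ (by linarith) (by linarith) 2
          rw [CY_scale hn, ← hB, hK]
          have h6 : eT W.u W.w τ l x * ∑ j, Yf (AT N) (WV E (eT W.u W.w τ l) v) (fR N J j) x ≤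
              eT W.u W.w τ l x * ∑ k ∈ Finset.range (J + 3),
                ∑ j, Yf (AT N) (WV E (eT W.u W.w τ l) v) (kf (fR N J) J k j) x :=
            mul_le_mul_of_nonneg_left h2 (he l x).le
          have h7 : 0 ≤ eT W.u W.w τ l x *
              ∑ j, Yf (AT N) (WV E (eT W.u W.w τ l) v) (fR N J j) x :=
            mul_nonneg (he l x).le h3
          rw [mul_assoc ((J + 2 : ℝ) * B)]
          refine mul_le_mul_of_nonneg_left ?_ (by positivity)
          rw [mul_assoc (CLy lam E ^ 2), mul_assoc (CLy lam E ^ 2)]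
          refine mul_le_mul_of_nonneg_left ?_ (by positivity)
          exact mul_le_mul h4 h6 h7 (by positivity))
  refine le_trans key ?_
  have hY : 0 ≤ ∑ k ∈ Finset.range (J + 3), W.Yg E (kf (fR N J) J k) τ :=
    Finset.sum_nonneg fun k _ => YG_nonneg ok.p_nonneg he
      fun l x => mul_nonneg (Real.exp_pos _).le (ok.w_nonneg l x)
  have hJS : (J + 2 : ℝ) ≤ (C1 + 4) * W.S := by
    have := P365T2.H831.nJ_le hC1 hS1
    rw [← hJ] at this
    nlinarith
  have h1 : K ≤ B * CLy lam E ^ 2 * (9 * (C1 + 4)) * W.S ^ 5 := by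
    have h2 : (1 + 2 * W.S) ^ 2 ≤ 9 * W.S ^ 2 := by nlinarith
    have h3 : (J + 2 : ℝ) * (1 + 2 * W.S) ^ 2 ≤ (C1 + 4) * W.S * (9 * W.S ^ 2) :=
      mul_le_mul hJS h2 (by positivity) (by positivity)
    have h4 : (C1 + 4) * W.S * (9 * W.S ^ 2) ≤ 9 * (C1 + 4) * W.S ^ 5 := by
      have h5 : W.S ^ 3 ≤ W.S ^ 5 := pow_le_pow_right₀ hS1 (by norm_num)
      have h6 : 0 ≤ 9 * (C1 + 4) := by positivity
      nlinarith [mul_le_mul_of_nonneg_left h5 h6]
    have h5 : 0 ≤ B * CLy lam E ^ 2 := by positivity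
    have h6 := mul_le_mul_of_nonneg_left (h3.trans h4) h5
    calc K = B * CLy lam E ^ 2 * ((J + 2 : ℝ) * (1 + 2 * W.S) ^ 2) := by rw [hK]; ring
      _ ≤ _ := h6
      _ = _ := by ring
  have h2 := mul_le_mul_of_nonneg_right h1 hY
  calc 5 * 5 * W.Phi E (fR N J) τ + K * ∑ k ∈ Finset.range (J + 3), W.Yg E (kf (fR N J) J k) τ
      ≤ 25 * W.Phi E (fR N J) τ + B * CLy lam E ^ 2 * (9 * (C1 + 4)) * W.S ^ 5 *
        ∑ k ∈ Finset.range (J + 3), W.Yg E (kf (fR N J) J k) τ := by
        refine add_le_add (le_of_eq ?_) h2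
        norm_num
    _ = _ := by ring

/-- **`UPart` of 912's `XThm` v4** -/
theorem uPart {lam : ℝ} (hlam : 0 < lam) (E C1 : ℝ) (hC1 : 0 < C1) :
    P365T2.H912.UPart lam E C1 (fun N _ W t => EnX W E C1 t) (fun N _ W t => LossX W E C1 t)
      (fun T N _ W t => PosX W E C1 T t) :=
  P365T2.H831.uPart_of_law hlam hC1 (uLaw hlam E C1 hC1)

end P365T2.H869
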